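import Crest.Agent.X262.Cnt37.Main
import Crest.Agent.X262.PD.Prd

/-!
# Row 262, road B, WDVV (helper28): the chart around the universal glued datum

* `tvD`       : the transvection of a datum, `crd_of_tv` : its moduli;
* `exists_desc'` : descent of a normalised datum to its field of moduli;
* `exists_free` : a purely transcendental extension;
* `chartStmt : Wd54.ChartStmt`.
-/

set_option autoImplicit false
set_option linter.unusedSectionVars false

noncomputable section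

namespace Crest.Agent.X262.Cht28

open Crest.Agent.X277.BD (dim trdeg_eq_dim)
open Crest.Agent.X262.Bub96 (hv)
open Crest.Agent.X262.Vb Crest.Agent.X262.Vb37 Crest.Agent.X262.Wd54 Crest.Agent.X262.Cnt37
open Crest.Agent.X262.Node22 (scl Par dimP)
open Polynomial (C coeff)

variable {J : Type} {io : J → Type} {d : J → ℕ}
  [Fintype J] [DecidableEq J] [∀ j, Fintype (io j)] [∀ j, DecidableEq (io j)]
variable {M : Type} {K : Type} [Field K] [Algebra ℂ K]

/-- the transvection of a datum -/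
def tvD (i₀ : (j : J) → io j) (u : Vr io → K) (hu : ∀ j, u ⟨j, i₀ j⟩ = 0) (ξ : Dat io d M K) :
    Dat io d M K where
  f j i := ξ.f j i + C (u ⟨j, i⟩) * ξ.f j (i₀ j)
  x := ξ.x
  cp := by
    refine ⟨fun j i => (Polynomial.natDegree_add_le _ _).trans (max_le (ξ.cp.1 j i)
      ((Polynomial.natDegree_C_mul_le _ _).trans (ξ.cp.1 j _))), fun j => ?_, fun j => ?_⟩
    · by_cases h : (ξ.f j (i₀ j)).coeff (d j) = 0
      · obtain ⟨i, hi⟩ := ξ.cp.2.1 j
        exact ⟨i, by simpa [h] using hi⟩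
      · exact ⟨i₀ j, by simpa [hu] using h⟩
    · rw [eq_top_iff, ← ξ.cp.2.2 j, Ideal.span_le]
      rintro _ ⟨i, rfl⟩
      have h1 := Ideal.subset_span (s := Set.range fun i => ξ.f j i + C (u ⟨j, i⟩) * ξ.f j (i₀ j))
        ⟨i, rfl⟩
      have h2 := Ideal.subset_span (s := Set.range fun i => ξ.f j i + C (u ⟨j, i⟩) * ξ.f j (i₀ j))
        ⟨i₀ j, rfl⟩
      simp only [hu, map_zero, zero_mul, add_zero] at h2
      simpa using sub_mem h1 (Ideal.mul_mem_left _ (C (u ⟨j, i⟩)) h2)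

theorem tv_tvD (i₀ : (j : J) → io j) (u : Vr io → K) (hu : ∀ j, u ⟨j, i₀ j⟩ = 0)
    (ξ : Dat io d M K) : Tv i₀ u ξ (tvD i₀ u hu ξ) := ⟨hu, rfl, fun _ _ => rfl⟩

variable {i₀ : (j : J) → io j} {u : Vr io → K} {ξ ξ' : Dat io d M K}

theorem tv_y (h : Tv i₀ u ξ ξ') (q : M) (j : J) (i : io j) :
    ξ'.cfg.y q j i = ξ.cfg.y q j i + u ⟨j, i⟩ * ξ.cfg.y q j (i₀ j) := by
  simp only [Dat.cfg, Dat.pt, h.2.1, h.2.2]
  cases ξ.x q <;> simp [hv]

theorem tv_u (h : Tv i₀ u ξ ξ') {q : M} (h0 : ∀ j, ξ.cfg.y q j (i₀ j) ≠ 0) (j : J) (i : io j) :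
    u ⟨j, i⟩ = ξ'.cfg.y q j i / ξ'.cfg.y q j (i₀ j) - ξ.cfg.y q j i / ξ.cfg.y q j (i₀ j) := by
  have := h0 j
  rw [tv_y h, tv_y h, h.1]
  field_simp
  ring

/-- the moduli before the transvection -/
theorem crd_of_tv (h : Tv i₀ u ξ ξ') {q : M} (h0 : ∀ j, ξ.cfg.y q j (i₀ j) ≠ 0)
    (E : IntermediateField ℂ K) (hu : ∀ v, u v ∈ E) (hE : ξ'.crd ⊆ E) : ξ.crd ⊆ E := by
  rintro t (⟨j, i, i', l, l', rfl⟩ | ⟨q, hq⟩)
  · have h1 : ξ.f j (i₀ j) ≠ 0 := fun h1 => h0 j (by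
      simp only [Dat.cfg, Dat.pt, h1]
      cases ξ.x q <;> simp [hv])
    have h2 : ξ'.f j (i₀ j) = ξ.f j (i₀ j) := by rw [h.2.2, h.1]; simp
    have h3 := Polynomial.leadingCoeff_ne_zero.2 h1
    have key : ∀ i l, (ξ.f j i).coeff l / (ξ.f j (i₀ j)).leadingCoeff ∈ E := fun i l => by
      have h4 := sub_mem (hE (Or.inl ⟨j, i, i₀ j, l, (ξ.f j (i₀ j)).natDegree, rfl⟩))
        (mul_mem (hu ⟨j, i⟩) (hE (Or.inl ⟨j, i₀ j, i₀ j, l, (ξ.f j (i₀ j)).natDegree, rfl⟩)))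
      rw [h2, h.2.2, Polynomial.coeff_add, Polynomial.coeff_C_mul, add_div, mul_div_assoc,
        add_sub_cancel_right] at h4
      exact h4
    rw [← div_div_div_cancel_right₀ h3]
    exact div_mem (key i l) (key i' l')
  · exact hE (Or.inr ⟨q, h.2.1 ▸ hq⟩)

theorem n3_map {L : Type} [Field L] [Algebra ℂ L] (α : K →ₐ[ℂ] L) (ξ : Dat io d M K) :
    N3 (ξ.map α) ↔ N3 ξ := by
  have h1 : ∀ (t : Option K) (s : K), t.map α = some (α s) ↔ t = some s := fun t s => by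
    cases t with
    | none => simp
    | some t => simpa using α.injective.eq_iff
  refine exists_congr fun a => exists_congr fun b => exists_congr fun c => ?_
  rw [← h1 _ 0, ← h1 _ 1, map_zero, map_one]
  exact and_congr_left' Option.map_eq_none_iff

/-- descent of a normalised datum to its field of moduli -/
theorem exists_desc' [Fintype M] (ξ : Dat io d M K) (h : N3 ξ) :
    ∃ ω : Dat io d M (IntermediateField.adjoin ℂ ξ.crd),
      ξ.Eqv (ω.map (IntermediateField.adjoin ℂ ξ.crd).val) ∧ N3 ω ∧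
      IntermediateField.adjoin ℂ ω.crd = ⊤ := by
  obtain ⟨ω, h1, h2, h3⟩ := countStmt.1 ξ _ (IntermediateField.subset_adjoin ℂ ξ.crd)
  refine ⟨ω, eqv_symm h1, (n3_map _ ω).1 (by unfold N3 at h ⊢; rwa [h2]), ?_⟩
  apply IntermediateField.map_injective (IntermediateField.adjoin ℂ ξ.crd).val
  rw [IntermediateField.adjoin_map, ← crd_map, h3, ← AlgHom.fieldRange_eq_map,
    IntermediateField.fieldRange_val]

/-- a purely transcendental extension -/
theorem exists_free (k : Type) [Field k] [Algebra ℂ k] [Algebra.EssFiniteType ℂ k] (σ : Type)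
    [Finite σ] : ∃ (K : Type) (_ : Field K) (_ : Algebra ℂ K) (_ : Algebra.EssFiniteType ℂ K)
      (γ : k →ₐ[ℂ] K) (t : σ → K), dim ℂ K = dim ℂ k + Nat.card σ ∧
      IntermediateField.adjoin ℂ (Set.range γ ∪ Set.range t) = ⊤ := by
  let R := MvPolynomial σ k
  let K := FractionRing R
  have h1 : Algebra.EssFiniteType k K := Algebra.EssFiniteType.comp k R K
  have h2 : Algebra.EssFiniteType ℂ K := Algebra.EssFiniteType.comp ℂ k K
  refine ⟨K, inferInstance, inferInstance, h2, IsScalarTower.toAlgHom ℂ k K,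
    fun s => algebraMap R K (MvPolynomial.X s), ?_, eq_top_iff.2 fun x _ => ?_⟩
  · have h3 := trdeg_add_eq ℂ k (A := K)
    have h4 := trdeg_add_eq k R (A := K)
    have : Algebra.IsAlgebraic R K := IsLocalization.isAlgebraic K (nonZeroDivisors R)
    rw [trdeg_eq_zero (R := R), add_zero, MvPolynomial.trdeg_of_isDomain, Cardinal.lift_id,
      ← Cardinal.cast_toNat_of_lt_aleph0 (Cardinal.lt_aleph0_of_finite σ)] at h4
    rw [← h4, trdeg_eq_dim, trdeg_eq_dim] at h3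
    exact_mod_cast h3.symm
  · have key : ∀ p : R, algebraMap R K p ∈ IntermediateField.adjoin ℂ
        (Set.range (IsScalarTower.toAlgHom ℂ k K) ∪
          Set.range fun s => algebraMap R K (MvPolynomial.X s)) := fun p => by
      induction p using MvPolynomial.induction_on with
      | C a => exact IntermediateField.subset_adjoin _ _ (Or.inl ⟨a, rfl⟩)
      | add p q hp hq => rw [map_add]; exact add_mem hp hq
      | mul_X p s hp =>
        rw [map_mul]
        exact mul_mem hp (IntermediateField.subset_adjoin _ _ (Or.inr ⟨s, rfl⟩))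
    obtain ⟨p, q, -, rfl⟩ := IsFractionRing.div_surjective (A := R) x
    exact div_mem (key p) (key q)

theorem map_y {L : Type} [Field L] [Algebra ℂ L] (α : K →ₐ[ℂ] L) (ξ : Dat io d M K) (q : M)
    (j : J) (i : io j) : (ξ.map α).cfg.y q j i = α (ξ.cfg.y q j i) := dmap_pt α ξ _ j i

/-- CHART -/
theorem chartStmt : ChartStmt := by
  intro J _ _ io _ _ d₁ d₂ M₁ M₂ k _ _ _ _ _ ζ₁ ζ₂ n₁ n₂ h
  choose i₀ hi₀ using nz_pt ζ₂ (ζ₂.x n₂)
  obtain ⟨K, _, _, _, γ, t, hd, hg⟩ := exists_free k (Af i₀)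
  rw [card_Af] at hd
  let u : Vr io → K := fun v => if h : v.2 = i₀ v.1 then 0 else t ⟨v.1, v.2, h⟩
  have hu : ∀ j, u ⟨j, i₀ j⟩ = 0 := fun j => dif_pos rfl
  have hT := tv_tvD i₀ u hu (ζ₂.map γ)
  set ζ := tvD i₀ u hu (ζ₂.map γ)
  have h0 : ∀ j, (ζ₂.map γ).cfg.y n₂ j (i₀ j) ≠ 0 := fun j => by
    rw [map_y]
    exact (map_ne_zero γ).2 (hi₀ j)
  have top : ∀ E : IntermediateField ℂ K, Set.range γ ⊆ E → (∀ v, u v ∈ E) → E = ⊤ :=
    fun E h1 h2 => top_le_iff.1 (hg ▸ IntermediateField.adjoin_le_iff.2 (Set.union_subset h1 (by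
      rintro _ ⟨⟨j, i, hi⟩, rfl⟩
      have h3 := h2 ⟨j, i⟩
      rwa [show u ⟨j, i⟩ = t ⟨j, i, hi⟩ from dif_neg hi] at h3)))
  obtain ⟨ω₁, e₁, m₁, g₁⟩ := exists_desc' (ζ₁.map γ) ((n3_map γ ζ₁).2 h.n1)
  obtain ⟨ω₂, e₂, m₂, g₂⟩ := exists_desc' ζ ((n3_map γ ζ₂).2 h.n2)
  obtain ⟨f₁, b₁⟩ := countStmt.2.1 ω₁ m₁ g₁
  obtain ⟨f₂, b₂⟩ := countStmt.2.1 ω₂ m₂ g₂
  have hs : (IntermediateField.adjoin ℂ (ζ₁.map γ).crd).val.fieldRange ⊔
      (IntermediateField.adjoin ℂ ζ.crd).val.fieldRange = ⊤ := by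
    rw [IntermediateField.fieldRange_val, IntermediateField.fieldRange_val]
    set E := IntermediateField.adjoin ℂ (ζ₁.map γ).crd ⊔ IntermediateField.adjoin ℂ ζ.crd
    have c₁ : (ζ₁.map γ).crd ⊆ E := fun x hx =>
      le_sup_left (a := IntermediateField.adjoin ℂ _) (IntermediateField.subset_adjoin ℂ _ hx)
    have c₂ : ζ.crd ⊆ E := fun x hx =>
      le_sup_right (b := IntermediateField.adjoin ℂ _) (IntermediateField.subset_adjoin ℂ _ hx)
    have hE : ∀ v, u v ∈ E := by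
      rintro ⟨j, i⟩
      rw [tv_u hT h0]
      refine sub_mem (rat_mem E c₂ n₂ j i _) ?_
      obtain ⟨s, hs, hp⟩ := h.par
      have h1 := rat_mem E c₁ n₁ j i (i₀ j)
      rw [map_y, map_y, hp, scl, scl, map_mul, map_mul,
        mul_div_mul_left _ _ ((map_ne_zero γ).2 (hs j))] at h1
      rwa [map_y, map_y]
    have c₃ := crd_of_tv hT h0 E hE c₂
    refine top E ?_ hE
    rw [← AlgHom.coe_fieldRange, SetLike.coe_subset_coe, AlgHom.fieldRange_eq_map, ← h.gen,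
      IntermediateField.adjoin_map, IntermediateField.adjoin_le_iff, Set.image_union, ← crd_map,
      ← crd_map]
    exact Set.union_subset c₁ c₃
  have b := PD.Pr.dim_le hs
  have b' := h.dm
  refine ⟨K, _, _, inferInstance, inferInstance, inferInstance, inferInstance, inferInstance,
    inferInstance, inferInstance, γ, _, _, i₀, u, ζ, ω₁, ω₂, hi₀, hT, ⟨m₁, g₁, ?_⟩, ⟨m₂, g₂, ?_⟩,
    ⟨by omega, hs⟩, e₁, e₂, hd, top _ (fun x hx => IntermediateField.subset_adjoin ℂ _ (Or.inl hx))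
      ?_⟩
  · rw [trdeg_eq_dim, Nat.cast_inj]
    omega
  · rw [trdeg_eq_dim, Nat.cast_inj]
    omega
  · rintro ⟨j, i⟩
    rw [tv_u hT h0, map_y, map_y, ← map_div₀]
    exact sub_mem (IntermediateField.subset_adjoin ℂ _ (Or.inr ⟨j, i, _, rfl⟩))
      (IntermediateField.subset_adjoin ℂ _ (Or.inl ⟨_, rfl⟩))

end Crest.Agent.X262.Cht28
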